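import Vale.Agent.P340.H744.Main

/-!
The Barendregt-Geuvers-Klop conjecture with eta steps: for every pure type system, weak
beta-normalization implies strong beta-eta-normalization, and it is enough that the finite
subsystems are weakly normalizing.
-/

namespace Vale.Agent.Results.P340.BetaEta

open Vale.Agent.P340 Vale.Agent.P340.H744

universe u

/-- (1) A pure type system is weakly normalizing if and only if it is strongly normalizing, for
beta reduction. (2) This holds if and only if it is strongly normalizing for beta-eta reduction,
and then it is weakly normalizing for beta-eta reduction. (3) This holds if and only if all its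
subsystems with finitely many axioms and rules are weakly normalizing for beta reduction. -/
theorem result {S : Type u} (P : Spec S) :
    (WN P ↔ SN P) ∧
    ((WN P ↔ SNBetaEta P) ∧ (WN P → WNBetaEta P)) ∧
    (SNBetaEta P ↔ ∀ Q : Spec S, Subsystem Q P → FinitelyMany Q → WN Q) :=
  ⟨main P, ⟨betaEta P, wnBetaEta P⟩, compactness P⟩

end Vale.Agent.Results.P340.BetaEta
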