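import Vale.Agent.P340.H796.C.Beta

/-!
Strong normalization from consistency: a pure type system is strongly normalizing if and only if
the elements of its kinds have beta-normal forms and it is consistent.
-/

namespace Vale.Agent.Results.P340.ConsistencyAndKinds

open Vale.Agent.P340 Vale.Agent.P340.H744 Vale.Agent.P340.H796C

universe u

/-- (1) A pure type system is weakly normalizing if and only if it is strongly normalizing.
(2) It is strongly normalizing if and only if the elements of its kinds have beta-normal forms
and it is consistent. (3) Then it is strongly and weakly normalizing for beta-eta reduction, and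
conversely. -/
theorem result {S : Type u} (P : Spec S) :
    (WN P ↔ SN P) ∧
    (SN P ↔ WNKinds P ∧ Consistent P) ∧
    ((SNBetaEta P ↔ WNKinds P ∧ Consistent P) ∧ (WNKinds P ∧ Consistent P → WNBetaEta P)) :=
  ⟨wn_iff P, sn_iff P, betaEta' P, fun h => wnBetaEta P ((wn_iff P).2 ((sn_iff P).2 h))⟩

end Vale.Agent.Results.P340.ConsistencyAndKinds
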