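import Vale.Agent.P340.H796.Main

/-!
A strong form of the Barendregt-Geuvers-Klop conjecture: a pure type system is strongly
normalizing as soon as the elements of its kinds and the elements of type variables have
beta-normal forms.
-/

namespace Vale.Agent.Results.P340.KindsAndVariables

open Vale.Agent.P340 Vale.Agent.P340.H744 Vale.Agent.P340.H796

universe u

/-- (1) A pure type system is weakly normalizing if and only if it is strongly normalizing.
(2) It is strongly normalizing if and only if every expression `M : A`, where `A` is a variable
or has a kind sort as type, has a beta-normal form. (3) Then it is strongly normalizing for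
beta-eta reduction. (4) It is enough to have this for the subsystems with finitely many axioms
and rules. -/
theorem result {S : Type u} (P : Spec S) :
    (WN P ↔ SN P) ∧
    (SN P ↔ WNKindVar P) ∧
    ((SNBetaEta P ↔ WNKindVar P) ∧ (WNKindVar P → WNBetaEta P)) ∧
    (SNBetaEta P ↔ ∀ Q : Spec S, Subsystem Q P → FinitelyMany Q → WNKindVar Q) :=
  ⟨wn_iff P, (main P).symm, ⟨betaEta' P, fun h => wnBetaEta P ((wn_iff P).2 ((main P).1 h))⟩,
    compactness' P⟩

end Vale.Agent.Results.P340.KindsAndVariables
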